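import Vale.Agent.P354XV.Cont
import Vale.Agent.P354YI.Met

/-!
TRANS: passage to the straightening chart.
-/

set_option linter.all false

open scoped ContDiff
open Set Filter Topology

noncomputable section

namespace Vale.Agent.P354TR

open Vale.Agent.P354n (R4)
open Vale.Agent.P354R (Met Pull)
open Vale.Agent.P354XE (Tw eT Bd pb)
open Vale.Agent.P354XD (tb rp_tb)
open Vale.Agent.P354XV
open Vale.Agent.P354YI (Oj)

variable {g g' : Tw} {D D' O O' A : Set R4} {p x : R4} {N : P354XV.Nat} {Y Y' f h : R4 → R4}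
  {k : ℕ} {B B' : ℝ} {t : R4 → ℝ}

theorem nice_pos (n : Nice k B g t p) : 0 < B := by
  obtain ⟨u, h1, h2⟩ := n.tl
  refine lt_of_le_of_ne ((norm_nonneg _).trans h1) ?_
  rintro rfl
  norm_num at h2

theorem nice_mono (n : Nice k B g t p) (hB : B ≤ B') : Nice k B' g t p := by
  have h0 := nice_pos n
  refine ⟨fun j hj v w => (n.bd j hj v w).trans (mul_le_mul_of_nonneg_right hB (by positivity)),
    fun v hv => (n.sp v hv).trans (mul_le_mul_of_nonneg_right hB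
      (nonneg_of_mul_nonneg_right ((sq_nonneg _).trans (n.sp v hv)) h0)), ?_⟩
  obtain ⟨u, h1, h2⟩ := n.tl
  exact ⟨u, h1.trans hB, by nlinarith⟩

/-- The gauge condition for related fields. -/
theorem gq_rel (hN : N.Is) (P : Pull f g' D' g D) (l : Lv g D) (hx : x ∈ D')
    (hd : 0 < LinearMap.det (fderiv ℝ f x : R4 →ₗ[ℝ] R4)) (hY' : DifferentiableAt ℝ Y' x)
    (hY : DifferentiableAt ℝ Y (f x)) (e : ∀ᶠ z in 𝓝 x, fderiv ℝ f z (Y' z) = Y (f z))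
    (q : Gq N p g Y (f x)) : Gq N p g' Y' x := by
  refine (gq_iff hN P l hx hd hY').2 ?_
  have hf := (P.smooth.contDiffAt (P.open'.mem_nhds hx)).differentiableAt (by simp)
  have e1 : (fun z => fderiv ℝ f z (Y' z)) =ᶠ[𝓝 x] Y ∘ f := e
  unfold Eq2
  rw [e1.fderiv_eq, fderiv_comp x hY hf, ContinuousLinearMap.comp_apply]
  simp only [e.self_of_nhds]
  exact q

/-- Two smooth maps which are inverse to each other. -/
structure Inv (f h : R4 → R4) (O O' : Set R4) : Prop where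
  o : IsOpen O
  o' : IsOpen O'
  sf : ContDiffOn ℝ ∞ f O
  sh : ContDiffOn ℝ ∞ h O'
  mf : MapsTo f O O'
  mh : MapsTo h O' O
  l : ∀ p ∈ O, h (f p) = p
  r : ∀ q ∈ O', f (h q) = q

theorem Inv.symm (i : Inv f h O O') : Inv h f O' O := ⟨i.o', i.o, i.sh, i.sf, i.mh, i.mf, i.r, i.l⟩

theorem Inv.dif (i : Inv f h O O') (hp : p ∈ O) : DifferentiableAt ℝ f p :=
  (i.sf.contDiffAt (i.o.mem_nhds hp)).differentiableAt (by simp)

theorem Inv.cmp (i : Inv f h O O') (hp : p ∈ O) :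
    (fderiv ℝ h (f p)).comp (fderiv ℝ f p) = .id ℝ R4 := by
  have k3 : h ∘ f =ᶠ[𝓝 p] id := mem_of_superset (i.o.mem_nhds hp) i.l
  rw [← fderiv_comp p (i.symm.dif (i.mf hp)) (i.dif hp), k3.fderiv_eq, fderiv_id]

theorem Inv.ap (i : Inv f h O O') (hp : p ∈ O) (v : R4) :
    fderiv ℝ h (f p) (fderiv ℝ f p v) = v :=
  congrArg (fun A : R4 →L[ℝ] R4 => A v) (i.cmp hp)

theorem Inv.det (i : Inv f h O O') (hp : p ∈ O)
    (d : 0 < LinearMap.det (fderiv ℝ h (f p) : R4 →ₗ[ℝ] R4)) :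
    0 < LinearMap.det (fderiv ℝ f p : R4 →ₗ[ℝ] R4) := by
  have e : (fderiv ℝ h (f p) : R4 →ₗ[ℝ] R4).comp (fderiv ℝ f p : R4 →ₗ[ℝ] R4) = .id :=
    LinearMap.ext (i.ap hp)
  refine (mul_pos_iff_of_pos_left d).1 ?_
  rw [← LinearMap.det_comp, e, LinearMap.det_id]
  exact one_pos

theorem Inv.pull (i : Inv f h O O') (l : Lv g A) (e : ∀ p, p ∈ D ↔ p ∈ O ∧ f p ∈ A) :
    Pull f (pb f g) D g A := by
  have o : IsOpen D := by
    rw [show D = O ∩ f ⁻¹' A from Set.ext e]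
    exact i.sf.continuousOn.isOpen_inter_preimage i.o l.isOpen
  exact ⟨o, l.isOpen, l.met, i.sf.mono fun p hp => ((e p).1 hp).1, fun p hp => ((e p).1 hp).2,
    fun p hp => Function.LeftInverse.injective (i.ap ((e p).1 hp).1), fun _ _ _ _ => rfl⟩

theorem Inv.fn (i : Inv f h O O') (hp : p ∈ O) (ht : ContDiffOn ℝ ∞ t O') (v : R4) :
    fderiv ℝ (t ∘ f) p v = fderiv ℝ t (f p) (fderiv ℝ f p v) := by
  rw [fderiv_comp p ((ht.contDiffAt (i.o'.mem_nhds (i.mf hp))).differentiableAt (by simp))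
    (i.dif hp), ContinuousLinearMap.comp_apply]

theorem ex_inv (o : IsOpen O) (sm : ContDiffOn ℝ ∞ f O) (i : InjOn f O)
    (d : ∀ p ∈ O, LinearMap.det (fderiv ℝ f p : R4 →ₗ[ℝ] R4) ≠ 0) : ∃ h, Inv f h O (f '' O) := by
  obtain ⟨h, li, sh, mp⟩ := P354YO.exists_inv o sm i fun p hp =>
    LinearMap.ker_eq_bot.1 (by_contra fun k => d p hp (LinearMap.det_eq_zero_iff_ker_ne_bot.2 k))
  refine ⟨h, o, isOpen_iff_mem_nhds.2 fun _ ⟨p, hp, e⟩ =>
    e ▸ (mp p hp) ▸ image_mem_map (o.mem_nhds hp), sm, sh, mapsTo_image _ _, ?_, li, ?_⟩ <;>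
    rintro _ ⟨p, hp, rfl⟩ <;> rw [li p hp]
  exact hp

/-- Uniform bounds for the pull back on a compact set. -/
theorem nice_pull {K M : Set R4} (i : Inv h f O' O) (hK : IsCompact K) (sK : K ⊆ O') (sM : M ⊆ K)
    (l : Lv g A) {t' : R4 → ℝ} (e : ∀ q ∈ M, ∀ v, fderiv ℝ t' q v = fderiv ℝ t (h q) (fderiv ℝ h q v))
    (n : ∀ q ∈ M, h q ∈ A ∧ Nice k B g t (h q)) : ∃ B', ∀ q ∈ M, Nice k B' (pb h g) t' q := by
  have sh : ∀ q ∈ K, ContDiffAt ℝ ∞ h q := fun q hq => i.sf.contDiffAt (i.o.mem_nhds (sK hq))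
  obtain ⟨C1, c1, h1⟩ := (Oj.pb (x := fun j : M => j.1) (f := fun _ => h) (fun j => sh _ (sM j.2))
    (Oj.fix hK (fun q hq => P354YI.at_fd (sh q hq)) fun j => sM j.2)
    (Oj.tb (g := fun _ => g) (μ := fun _ => B) (m := k) (fun j v w => (l.met.smooth v w).contDiffAt
      (l.isOpen.mem_nhds (n _ j.2).1)) fun j => (n _ j.2).2.bd)).bd' (g := fun _ => pb h g)
    fun j => by
      filter_upwards [(sh _ (sM j.2)).continuousAt.preimage_mem_nhds (l.isOpen.mem_nhds (n _ j.2).1)]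
        with y hy v w using (rp_tb l.isOpen l.met).eq _ hy _ _
  obtain ⟨C, hC⟩ := hK.exists_bound_of_continuousOn (f := fun q => fderiv ℝ f (h q))
    ((i.sh.continuousOn_fderiv_of_isOpen i.o' (by simp)).comp (i.sf.continuousOn.mono sK)
      fun q hq => i.mf (sK hq))
  refine ⟨(C1 + C ^ 2 + 1) * B, fun q hq => ?_⟩
  have n1 := (n q hq).2
  have b0 := nice_pos n1
  have c0 : 0 ≤ C := (norm_nonneg _).trans (hC q (sM hq))
  have a : ∀ v, ‖fderiv ℝ f (h q) v‖ ≤ C * ‖v‖ := fun v =>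
    (ContinuousLinearMap.le_opNorm _ _).trans
      (mul_le_mul_of_nonneg_right (hC q (sM hq)) (norm_nonneg _))
  refine ⟨fun j hj v w => (h1 ⟨q, hq⟩ j hj v w).trans (mul_le_mul_of_nonneg_right
    (by nlinarith [sq_nonneg C]) (by positivity)), fun v hv => ?_, ?_⟩
  · have a1 := a (fderiv ℝ h q v)
    rw [i.ap (sK (sM hq))] at a1
    have a2 := n1.sp _ ((e q hq v).symm.trans hv)
    have a3 := pow_le_pow_left₀ (norm_nonneg _) a1 2
    rw [mul_pow] at a3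
    have a4 := (sq_nonneg _).trans a2
    show _ ≤ _ * g (h q) (fderiv ℝ h q v) (fderiv ℝ h q v)
    nlinarith [sq_nonneg C]
  · obtain ⟨u, u1, u2⟩ := n1.tl
    have a1 := i.symm.ap (i.mf (sK (sM hq))) u
    rw [i.l q (sK (sM hq))] at a1
    refine ⟨fderiv ℝ f (h q) u, (a u).trans ((mul_le_mul_of_nonneg_left u1 c0).trans
      (mul_le_mul_of_nonneg_right (by nlinarith [sq_nonneg (C - 1)]) b0.le)), ?_⟩
    simp only [pb, a1]
    nlinarith [sq_nonneg C]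

theorem trans : TRANS := by
  refine fun k H => ⟨k, fun N S gc V g hN hS hc hs hb => ?_⟩
  obtain ⟨h, i⟩ := ex_inv hS.opn hS.smP hS.inj fun p hp => (hS.det p hp).ne'
  set O' := S.Ps '' S.O
  have j := i.symm
  let f : R4 → ℝ := fun q => fderiv ℝ S.tau (h q) (S.Y (h q))
  have sf : ContDiffOn ℝ ∞ f O' := (((hS.smt.fderiv_of_isOpen hS.opn (m := ∞) le_rfl).clm_apply
    hS.smY).comp i.sh i.mh :)
  have dY : ∀ p ∈ S.O, DifferentiableAt ℝ S.Y p := fun p hp =>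
    (hS.smY.contDiffAt (hS.opn.mem_nhds hp)).differentiableAt (by simp)
  have dY' : ∀ q ∈ O', DifferentiableAt ℝ (fun x => f x • eT) q := fun q hq =>
    ((sf.contDiffAt (i.o'.mem_nhds hq)).differentiableAt (by simp)).smul_const _
  have e1 : ∀ q ∈ O', fderiv ℝ h q (f q • eT) = S.Y (h q) := fun q hq => by
    have := i.ap (i.mh hq) (S.Y (h q))
    rwa [hS.str _ (i.mh hq), i.r q hq] at this
  have e2 : ∀ q ∈ O', S.tau (h q) = q.1 := fun q hq => by rw [← hS.fst _ (i.mh hq), i.r q hq]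
  have e3 : ∀ q ∈ O', ∀ v, fderiv ℝ Prod.fst q v = fderiv ℝ S.tau (h q) (fderiv ℝ h q v) :=
    fun q hq v => by
      rw [← j.fn hq hS.smt, EventuallyEq.fderiv_eq (f₁ := S.tau ∘ h) (f := Prod.fst)
        (mem_of_superset (i.o'.mem_nhds hq) e2)]
  have e4 : ∀ q v : R4, fderiv ℝ Prod.fst q v = v.1 := fun q v => by
    rw [fderiv_fst]
    rfl
  have dh : ∀ q ∈ O', 0 < LinearMap.det (fderiv ℝ h q : R4 →ₗ[ℝ] R4) := fun q hq =>
    j.det hq (hS.det _ (i.mh hq))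
  have cp : ∀ V, IsCompact {q | q ∈ O' ∧ q.1 ≤ V ∧ -1 ≤ (S.psi ∘ h) q} := fun V => by
    have k := (hS.cpt V).image_of_continuousOn (i.sf.continuousOn.mono fun _ k => k.1)
    refine (congrArg IsCompact (Set.ext fun q => ?_)).mp k
    refine ⟨?_, fun k => ⟨h q, ⟨i.mh k.1, (e2 q k.1).trans_le k.2.1, k.2.2⟩, i.r q k.1⟩⟩
    rintro ⟨p, hp, rfl⟩
    exact ⟨i.mf hp.1, (hS.fst p hp.1).trans_le hp.2.1, by
      rw [Function.comp, i.l p hp.1]
      exact hp.2.2⟩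
  have om : ∀ V q, q ∈ Om0 O' (S.psi ∘ h) V ↔ q ∈ O' ∧ h q ∈ S.Om V := fun V q =>
    ⟨fun k => ⟨k.1, i.mh k.1, by rw [e2 q k.1]; exact k.2⟩,
      fun k => ⟨k.1, by rw [← e2 q k.1]; exact k.2.2⟩⟩
  have P1 : Pull h (pb h gc) {q | q ∈ O' ∧ (S.psi ∘ h) q < 1} gc (S.Cl 1) :=
    j.pull hc.lv fun q => ⟨fun k => ⟨k.1, i.mh k.1, k.2⟩, fun k => ⟨k.1, k.2.2⟩⟩
  have P2 := j.pull hs.lv (om V)
  obtain ⟨B, hB⟩ := hb
  have hB' := fun q (hq : q ∈ O') (h1 : q.1 < V) h2 => hB _ (i.mh hq) ((e2 q hq).trans_lt h1) h2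
  obtain ⟨B', hB2⟩ := nice_pull (M := {q | q ∈ O' ∧ q.1 < V ∧ 0 ≤ (S.psi ∘ h) q}) j (cp V)
    (fun _ k => k.1) (fun q k => ⟨k.1, k.2.1.le, by linarith [k.2.2]⟩) hs.lv
    (fun q k => e3 q k.1) fun q k => ⟨((om V q).1 ⟨k.1, .inl k.2.1⟩).2, (hB' q k.1 k.2.1 k.2.2).1⟩
  obtain ⟨V', hV, g2, l2, q2, r2⟩ := H N O' f (S.psi ∘ h) h (pb h gc) V (pb h g) hN
    ⟨i.o', sf, hS.smp.comp i.sh i.mh, i.sh, fun q hq => hS.Yt _ (i.mh hq), fun q hq h1 h2 => by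
      have a := hS.Yp _ (i.mh hq) h1 h2
      rw [← e1 q hq, ← j.fn hq hS.smp, map_smul, smul_eq_mul] at a
      exact (mul_pos_iff_of_pos_left (hS.Yt _ (i.mh hq))).1 a, cp⟩
    (hc.lv.pull P1)
    (fun q hq h1 h2 => by
      obtain ⟨t1, t2, t3⟩ := hc.top _ (i.mh hq) h1 h2
      have hq' : q ∈ {q | q ∈ O' ∧ (S.psi ∘ h) q < 1} := ⟨hq, h2.trans_lt one_pos⟩
      refine ⟨fun v h0 hv => t1 _ (fun k => h0 (P1.inj q hq' (k.trans (map_zero _).symm)))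
        ((e3 q hq v).symm.trans hv), ?_, fun v h3 h4 => ?_⟩
      · rw [(hN.nat _ _ _ _ _ P1 hc.lv q hq' (dh q hq) _ _).2.1, e1 q hq]
        exact t2
      · rw [j.fn hq hS.smp]
        exact t3 _ h3 (by rwa [← e3 q hq, e4]))
    (hs.lv.pull P2)
    (fun q hq => gq_rel hN P2 hs.lv hq (dh q hq.1) (dY' q hq.1) (dY _ (i.mh hq.1))
      (mem_of_superset (i.o'.mem_nhds hq.1) e1) (hs.gau _ ((om V q).1 hq).2))
    (fun q hq => by
      unfold pb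
      rw [hs.col ⟨i.mh hq.1, hq.2⟩])
    ⟨B', fun q hq h1 h2 => ⟨hB2 q ⟨hq, h1, h2⟩, by
      rw [(hN.nat _ _ _ _ _ P2 hs.lv q ⟨hq, .inl h1⟩ (dh q hq) _ _).2.1, e1 q hq]
      exact (hB' q hq h1 h2).2⟩⟩
  have om' : ∀ V p, p ∈ S.Om V ↔ p ∈ S.O ∧ S.Ps p ∈ Om0 O' (S.psi ∘ h) V := fun V p =>
    ⟨fun k => ⟨k.1, (om V _).2 ⟨i.mf k.1, by rwa [i.l p k.1]⟩⟩,
      fun k => i.l p k.1 ▸ ((om V _).1 k.2).2⟩
  have P3 := i.pull l2 (om' V')
  have eq : EqOn (pb S.Ps g2) g (S.Om V) := fun p hp => by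
    funext v w
    simp only [pb, r2 ((om' V p).1 hp).2, i.ap hp.1, i.l p hp.1]
  refine ⟨V', hV, pb S.Ps g2, ⟨l2.pull P3, fun p hp => ?_,
    fun p hp => (eq (S.cl_om V hp)).trans (hs.col hp)⟩, eq⟩
  refine gq_rel hN P3 l2 hp (hS.det p hp.1) (dY p hp.1) (dY' _ (i.mf hp.1))
    (mem_of_superset (hS.opn.mem_nhds hp.1) fun z hz => ?_) ?_
  · show _ = f (S.Ps z) • eT
    simp only [f, i.l z hz, hS.str z hz]
  · have := q2 _ ((om' V' p).1 hp).2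
    rwa [i.l p hp.1] at this

end Vale.Agent.P354TR
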